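import Vale.Agent.P099.Fubini

namespace Vale.Agent.P099

open MeasureTheory Set
open scoped Real ComplexConjugate

lemma arg_div_coe_dir {x y : ℂ} (hx : x ≠ 0) (hy : y ≠ 0) :
    (((x / y).arg : ℝ) : Dir) = ((x.arg : ℝ) : Dir) - ((y.arg : ℝ) : Dir) :=
  Complex.arg_div_coe_angle hx hy

lemma arg_neg_coe_dir {x : ℂ} (hx : x ≠ 0) :
    (((-x).arg : ℝ) : Dir) = ((x.arg : ℝ) : Dir) + ((π : ℝ) : Dir) :=
  Complex.arg_neg_coe_angle hx

lemma two_nsmul_pi : 2 • ((π : ℝ) : Dir) = 0 := by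
  rw [← AddCircle.coe_nsmul, nsmul_eq_mul]
  push_cast
  exact AddCircle.coe_period _

variable (T : Affine.Triangle ℝ ℂ)

/-- The direction angle of the side opposite to the vertex `i`. -/
noncomputable def phi (i : Fin 3) : Dir := (((sideVec T i).arg : ℝ) : Dir)

lemma reflDir_eq (i : Fin 3) (θ : Dir) : reflDir T i θ = 2 • phi T i - θ := rfl

lemma two_phi_sub (i : Fin 3) :
    2 • phi T (i + 2) - 2 • phi T (i + 1) = ((2 * angleAt T i : ℝ) : Dir) ∨
    2 • phi T (i + 2) - 2 • phi T (i + 1) = - ((2 * angleAt T i : ℝ) : Dir) := by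
  have e1 : i + 2 + 2 = i + 1 := by fin_cases i <;> rfl
  have e2 : i + 2 + 1 = i := by fin_cases i <;> rfl
  have e3 : i + 1 + 2 = i := by fin_cases i <;> rfl
  have e4 : i + 1 + 1 = i + 2 := by fin_cases i <;> rfl
  have hu : sideVec T (i + 2) = T.points (i + 1) - T.points i := by
    unfold sideVec; rw [e1, e2]
  have hu' : - sideVec T (i + 1) = T.points (i + 2) - T.points i := by
    unfold sideVec; rw [e3, e4]; ring
  have h1 := sideVec_ne_zero T (i + 2)
  have h2 := sideVec_ne_zero T (i + 1)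
  have h2' : - sideVec T (i + 1) ≠ 0 := neg_ne_zero.2 h2
  have hang : angleAt T i = |(sideVec T (i + 2) / (- sideVec T (i + 1))).arg| := by
    rw [← Complex.angle_eq_abs_arg h1 h2', hu, hu']
    rfl
  set ψ := (sideVec T (i + 2) / (- sideVec T (i + 1))).arg with hψ
  have hψd : (ψ : Dir) = phi T (i + 2) - phi T (i + 1) - ((π : ℝ) : Dir) := by
    rw [hψ, arg_div_coe_dir h1 h2', arg_neg_coe_dir h2]
    unfold phi
    abel
  have h2ψ : ((2 * ψ : ℝ) : Dir) = 2 • phi T (i + 2) - 2 • phi T (i + 1) := by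
    have : ((2 * ψ : ℝ) : Dir) = 2 • (ψ : Dir) := by
      rw [← AddCircle.coe_nsmul, nsmul_eq_mul]
      push_cast
      rfl
    rw [this, hψd, smul_sub, smul_sub, two_nsmul_pi, sub_zero]
  rw [← h2ψ, hang]
  rcases abs_choice ψ with h | h
  · left; rw [h]
  · right
    rw [h, ← AddCircle.coe_neg]
    congr 1
    ring

lemma rational_of_addOrderOf_ne_zero (α : ℝ) (h : addOrderOf ((2 * α : ℝ) : Dir) ≠ 0) :
    ∃ q : ℚ, α = q * π := by
  set n := addOrderOf ((2 * α : ℝ) : Dir) with hn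
  have h0 : n • ((2 * α : ℝ) : Dir) = 0 := addOrderOf_nsmul_eq_zero _
  rw [← AddCircle.coe_nsmul, AddCircle.coe_eq_zero_iff] at h0
  obtain ⟨m, hm⟩ := h0
  refine ⟨(m : ℚ) / n, ?_⟩
  have hn' : (n : ℝ) ≠ 0 := by exact_mod_cast h
  simp only [zsmul_eq_mul, nsmul_eq_mul] at hm
  push_cast
  field_simp
  linarith

lemma nsmul_eq_zero_of_rational (α : ℝ) (q : ℚ) (h : α = q * π) :
    q.den • ((2 * α : ℝ) : Dir) = 0 := by
  rw [← AddCircle.coe_nsmul, AddCircle.coe_eq_zero_iff]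
  refine ⟨q.num, ?_⟩
  simp only [zsmul_eq_mul, nsmul_eq_mul]
  rw [h]
  have hq : (q : ℝ) = (q.num : ℝ) / (q.den : ℝ) := by
    exact_mod_cast (Rat.num_div_den q).symm
  have hd : (q.den : ℝ) ≠ 0 := by exact_mod_cast q.den_nz
  rw [hq]
  field_simp

end Vale.Agent.P099
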