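import Vale.Agent.P099.Forward

namespace Vale.Agent.P099

open MeasureTheory Set
open scoped Real ComplexConjugate symmDiff

variable (T : Affine.Triangle ℝ ℂ)

lemma exists_period (hT : IsRational T) :
    ∃ N : ℕ, 0 < N ∧ N • ((π : ℝ) : Dir) = 0 ∧ ∀ i, N • (2 • phi T i - 2 • phi T 0) = 0 := by
  choose q hq using hT
  have key : ∀ k : Fin 3, (q k).den • (2 • phi T (k + 2) - 2 • phi T (k + 1)) = 0 := by
    intro k
    have h0 := nsmul_eq_zero_of_rational _ _ (hq k)
    rcases two_phi_sub T k with h | h
    · rw [h, h0]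
    · rw [h, smul_neg, h0, neg_zero]
  refine ⟨2 * ((q 0).den * (q 1).den * (q 2).den), ?_, ?_, ?_⟩
  · have h0 := (q 0).den_pos
    have h1 := (q 1).den_pos
    have h2 := (q 2).den_pos
    positivity
  · rw [mul_smul, smul_comm, two_nsmul_pi, smul_zero]
  · intro i
    fin_cases i
    · simp
    · have h := key 2
      have e1 : (2 : Fin 3) + 2 = 1 := rfl
      have e2 : (2 : Fin 3) + 1 = 0 := rfl
      rw [e1, e2] at h
      change (2 * ((q 0).den * (q 1).den * (q 2).den)) • (2 • phi T 1 - 2 • phi T 0) = 0
      rw [← mul_assoc, mul_smul, h, smul_zero]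
    · have h := key 1
      have e1 : (1 : Fin 3) + 2 = 0 := rfl
      have e2 : (1 : Fin 3) + 1 = 2 := rfl
      rw [e1, e2] at h
      change (2 * ((q 0).den * (q 1).den * (q 2).den)) • (2 • phi T 2 - 2 • phi T 0) = 0
      have e3 : 2 * ((q 0).den * (q 1).den * (q 2).den) = (2 * (q 0).den * (q 2).den) * (q 1).den := by
        ring
      have e4 : (2 : ℕ) • phi T 2 - (2 : ℕ) • phi T 0
          = - ((2 : ℕ) • phi T 0 - (2 : ℕ) • phi T 2) := by abel
      rw [e3, e4, mul_smul, smul_neg, h, neg_zero, smul_zero]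

/-- The first integral `cos (N (θ - φ₀))`. -/
noncomputable def integral (N : ℕ) (θ : Dir) : ℝ := (vel (N • (θ - phi T 0))).re

lemma continuous_integral (N : ℕ) : Continuous (integral T N) := by
  unfold integral
  exact Complex.continuous_re.comp (continuous_vel.comp (by fun_prop))

lemma integral_reflDir (N : ℕ) (hN : ∀ i, N • (2 • phi T i - 2 • phi T 0) = 0) (i : Fin 3)
    (θ : Dir) : integral T N (reflDir T i θ) = integral T N θ := by
  unfold integral
  have : N • (reflDir T i θ - phi T 0) = - (N • (θ - phi T 0)) + N • (2 • phi T i - 2 • phi T 0) := by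
    rw [reflDir_eq, ← smul_neg, ← smul_add]
    congr 1
    abel
  rw [this, hN i, add_zero, vel_neg, Complex.conj_re]

lemma integral_add_pi (N : ℕ) (hN : N • ((π : ℝ) : Dir) = 0) (θ : Dir) :
    integral T N (θ + ((π : ℝ) : Dir)) = integral T N θ := by
  unfold integral
  have : N • (θ + ((π : ℝ) : Dir) - phi T 0) = N • (θ - phi T 0) + N • ((π : ℝ) : Dir) := by
    rw [← smul_add]
    congr 1
    abel
  rw [this, hN, add_zero]

lemma integral_run (N : ℕ) (hN : ∀ i, N • (2 • phi T i - 2 • phi T 0) = 0) {t : ℝ} {z z' : Phase}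
    (h : Run T t z z') : integral T N z'.2 = integral T N z.2 := by
  induction h with
  | free x θ t ht hx => rfl
  | bounce x θ s t i z hs hx h ih =>
    rw [ih]
    exact integral_reflDir T N hN i θ

lemma integral_flowFwd (N : ℕ) (hN : ∀ i, N • (2 • phi T i - 2 • phi T 0) = 0) (t : ℝ) (z : Phase) :
    integral T N (flowFwd T t z).2 = integral T N z.2 := by
  by_cases h : ∃ z', Run T t z z'
  · exact integral_run T N hN (flowFwd_spec T h)
  · unfold flowFwd
    rw [dif_neg h]

lemma integral_flow (N : ℕ) (hN : ∀ i, N • (2 • phi T i - 2 • phi T 0) = 0)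
    (hN' : N • ((π : ℝ) : Dir) = 0) (t : ℝ) (z : Phase) :
    integral T N (flow T t z).2 = integral T N z.2 := by
  unfold flow
  split_ifs with h
  · exact integral_flowFwd T N hN t z
  · unfold rev
    simp only
    rw [integral_add_pi T N hN', integral_flowFwd T N hN, integral_add_pi T N hN']

theorem exists_invariant_of_rational (hT : IsRational T) :
    ∃ B : Set Dir, MeasurableSet B ∧
      (∀ t : ℝ, liouville T ((flow T t ⁻¹' (Prod.snd ⁻¹' B)) ∆ (Prod.snd ⁻¹' B)) = 0) ∧
      liouville T (Prod.snd ⁻¹' B) ≠ 0 ∧ liouville T (Prod.snd ⁻¹' B) ≠ 1 := by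
  obtain ⟨N, hNpos, hNpi, hN⟩ := exists_period T hT
  set B : Set Dir := {θ | 0 < integral T N θ} with hB
  have hBopen : IsOpen B := isOpen_lt continuous_const (continuous_integral T N)
  have hCopen : IsOpen {θ : Dir | integral T N θ < 0} :=
    isOpen_lt (continuous_integral T N) continuous_const
  have hBne : B.Nonempty := by
    refine ⟨phi T 0, ?_⟩
    simp only [hB, mem_ofPred_eq, integral, sub_self, smul_zero]
    have : vel (0 : Dir) = 1 := by
      have := vel_coe 0
      simpa using this
    rw [this]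
    norm_num
  have hCne : {θ : Dir | integral T N θ < 0}.Nonempty := by
    refine ⟨phi T 0 + ((π / N : ℝ) : Dir), ?_⟩
    simp only [mem_ofPred_eq, integral, add_sub_cancel_left]
    have : N • ((π / N : ℝ) : Dir) = ((π : ℝ) : Dir) := by
      rw [← AddCircle.coe_nsmul, nsmul_eq_mul]
      congr 1
      have : (N : ℝ) ≠ 0 := by exact_mod_cast hNpos.ne'
      field_simp
    rw [this, vel_pi]
    norm_num
  have hBpos : 0 < volume B := hBopen.measure_pos volume hBne
  have hCpos : 0 < volume {θ : Dir | integral T N θ < 0} := hCopen.measure_pos volume hCne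
  have hBlt : volume B < ENNReal.ofReal (2 * π) := by
    have hdisj : Disjoint B {θ : Dir | integral T N θ < 0} := by
      rw [Set.disjoint_left]
      intro θ h1 h2
      simp only [hB, mem_ofPred_eq] at h1 h2
      linarith
    have hle : volume B + volume {θ : Dir | integral T N θ < 0} ≤ ENNReal.ofReal (2 * π) := by
      rw [← measure_union hdisj hCopen.measurableSet, ← AddCircle.measure_univ]
      exact measure_mono (subset_univ _)
    have hfin : volume B ≠ ⊤ := (measure_lt_top _ _).ne
    calc volume B < volume B + volume {θ : Dir | integral T N θ < 0} :=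
          ENNReal.lt_add_right hfin hCpos.ne'
      _ ≤ _ := hle
  refine ⟨B, hBopen.measurableSet, ?_, ?_, ?_⟩
  · intro t
    have : flow T t ⁻¹' (Prod.snd ⁻¹' B) = Prod.snd ⁻¹' B := by
      ext z
      simp only [hB, mem_preimage, mem_ofPred_eq]
      rw [integral_flow T N hN hNpi]
    rw [this, symmDiff_self]
    simp
  · rw [liouville_snd_preimage]
    exact mul_ne_zero (liouville_const_ne_zero T) (mul_ne_zero (volume_table_pos T).ne' hBpos.ne')
  · rw [liouville_snd_preimage]
    intro h
    have hc0 : ENNReal.ofReal (2 * π) * volume (table T) ≠ 0 :=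
      mul_ne_zero (by simp [Real.pi_pos]) (volume_table_pos T).ne'
    have hct : ENNReal.ofReal (2 * π) * volume (table T) ≠ ⊤ :=
      ENNReal.mul_ne_top ENNReal.ofReal_ne_top (volume_table_lt_top T).ne
    rw [mul_comm, ← div_eq_mul_inv, ENNReal.div_eq_one_iff hc0 hct, mul_comm] at h
    have := (ENNReal.mul_left_inj (volume_table_pos T).ne' (volume_table_lt_top T).ne).1 h
    exact hBlt.ne this

end Vale.Agent.P099
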