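import Mathlib

namespace Vale.Agent.P099

open MeasureTheory Set
open scoped Real

/-- Positivity of the period `2π`, needed for Lebesgue measure on the circle of directions. -/
instance factTwoPiPos : Fact (0 < 2 * π) := ⟨Real.two_pi_pos⟩

/-- Directions: angles modulo `2π`. -/
abbrev Dir : Type := AddCircle (2 * π)

/-- Phase points: a position in the plane `ℂ` and a direction. -/
abbrev Phase : Type := ℂ × Dir

/-- The unit velocity vector `exp (i θ)` of a direction `θ`. -/
noncomputable def vel (θ : Dir) : ℂ := ((AddCircle.toCircle θ : Circle) : ℂ)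

/-- The billiard table `Q`: the interior of the triangle. -/
def table (T : Affine.Triangle ℝ ℂ) : Set ℂ := interior (convexHull ℝ (Set.range T.points))

/-- The open side opposite to the vertex `i`. -/
def side (T : Affine.Triangle ℝ ℂ) (i : Fin 3) : Set ℂ :=
  openSegment ℝ (T.points (i + 1)) (T.points (i + 2))

/-- Specular reflection of a direction in the side opposite to the vertex `i`:
if the side has direction angle `φ`, then `θ` is sent to `2 φ - θ`. -/
noncomputable def reflDir (T : Affine.Triangle ℝ ℂ) (i : Fin 3) (θ : Dir) : Dir :=
  2 • (((T.points (i + 2) - T.points (i + 1)).arg : ℝ) : Dir) - θ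

/-- `Run T t z z'`: the billiard trajectory issued from `z` is at `z'`, inside the table, after
time `t`, having met the boundary finitely often and only in points of the open sides. -/
inductive Run (T : Affine.Triangle ℝ ℂ) : ℝ → Phase → Phase → Prop
  | free (x : ℂ) (θ : Dir) (t : ℝ) (ht : 0 ≤ t) (hx : x + t • vel θ ∈ table T) :
      Run T t (x, θ) (x + t • vel θ, θ)
  | bounce (x : ℂ) (θ : Dir) (s t : ℝ) (i : Fin 3) (z : Phase) (hs : 0 < s)
      (hx : x + s • vel θ ∈ side T i) (h : Run T t (x + s • vel θ, reflDir T i θ) z) :
      Run T (s + t) (x, θ) z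

open Classical in
/-- The billiard flow for nonnegative times (the identity where it is not defined). -/
noncomputable def flowFwd (T : Affine.Triangle ℝ ℂ) (t : ℝ) (z : Phase) : Phase :=
  if h : ∃ z', Run T t z z' then h.choose else z

/-- Reversal of the direction. -/
noncomputable def rev (z : Phase) : Phase := (z.1, z.2 + ((π : ℝ) : Dir))

/-- The billiard flow for all real times. -/
noncomputable def flow (T : Affine.Triangle ℝ ℂ) (t : ℝ) (z : Phase) : Phase :=
  if 0 ≤ t then flowFwd T t z else rev (flowFwd T (-t) (rev z))

/-- The invariant probability measure `dA dθ / (2π Area Q)` on `Q × S¹`. -/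
noncomputable def liouville (T : Affine.Triangle ℝ ℂ) : Measure Phase :=
  (ENNReal.ofReal (2 * π) * volume (table T))⁻¹ • ((volume.restrict (table T)).prod volume)

/-- The angle of the triangle at the vertex `i`. -/
noncomputable def angleAt (T : Affine.Triangle ℝ ℂ) (i : Fin 3) : ℝ :=
  EuclideanGeometry.angle (T.points (i + 1)) (T.points i) (T.points (i + 2))

/-- A triangle is rational if all its angles are rational multiples of `π`. -/
def IsRational (T : Affine.Triangle ℝ ℂ) : Prop := ∀ i, ∃ q : ℚ, angleAt T i = q * π

end Vale.Agent.P099
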