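import Vale.Agent.P099.Angles

namespace Vale.Agent.P099

open MeasureTheory Set
open scoped Real ComplexConjugate symmDiff

variable (T : Affine.Triangle ℝ ℂ)

lemma liouville_const_ne_zero : (ENNReal.ofReal (2 * π) * volume (table T))⁻¹ ≠ 0 := by
  rw [ENNReal.inv_ne_zero]
  exact ENNReal.mul_ne_top ENNReal.ofReal_ne_top (volume_table_lt_top T).ne

lemma prod_null_of_liouville_null (E : Set Phase) (h : liouville T E = 0) :
    ((volume.restrict (table T)).prod (volume : Measure Dir)) E = 0 := by
  unfold liouville at h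
  rw [Measure.smul_apply, smul_eq_mul, mul_eq_zero] at h
  exact h.resolve_left (liouville_const_ne_zero T)

lemma liouville_snd_preimage (B : Set Dir) :
    liouville T (Prod.snd ⁻¹' B) =
      (ENNReal.ofReal (2 * π) * volume (table T))⁻¹ * (volume (table T) * volume B) := by
  unfold liouville
  rw [Measure.smul_apply, smul_eq_mul]
  have : (Prod.snd ⁻¹' B : Set Phase) = univ ×ˢ B := by
    ext z; simp
  rw [this, Measure.prod_prod, Measure.restrict_apply MeasurableSet.univ, univ_inter]

/-- The set of directions at which `B` is not symmetric under the reflection in side `i`. -/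
def asym (i : Fin 3) (B : Set Dir) : Set Dir := {θ | ¬ (θ ∈ B ↔ reflDir T i θ ∈ B)}

lemma measurableSet_asym (i : Fin 3) (B : Set Dir) (hB : MeasurableSet B) :
    MeasurableSet (asym T i B) := by
  have h1 : MeasurableSet (reflDir T i ⁻¹' B) := measurable_reflDir T i hB
  have : asym T i B = (B ∩ (reflDir T i ⁻¹' B)ᶜ) ∪ (Bᶜ ∩ (reflDir T i ⁻¹' B)) := by
    ext θ
    simp only [asym, mem_ofPred_eq, mem_union, mem_inter_iff, mem_compl_iff, mem_preimage]
    tauto
  rw [this]
  exact (hB.inter h1.compl).union (hB.compl.inter h1)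

lemma asym_symm (i : Fin 3) (B : Set Dir) (θ : Dir) (h : θ ∈ asym T i B) :
    reflDir T i θ ∈ asym T i B := by
  simp only [asym, mem_ofPred_eq] at h ⊢
  rw [reflDir_reflDir]
  tauto

lemma asym_fix (i : Fin 3) (B : Set Dir) (θ : Dir) (h : reflDir T i θ = θ) :
    θ ∉ asym T i B := by
  simp only [asym, mem_ofPred_eq, h, not_true_eq_false, not_false_eq_true, iff_self]

/-- An invariant set depending only on the direction is almost symmetric under the reflections
in the three sides. -/
lemma asym_null (B : Set Dir) (hB : MeasurableSet B)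
    (hinv : ∀ t : ℝ, liouville T ((flow T t ⁻¹' (Prod.snd ⁻¹' B)) ∆ (Prod.snd ⁻¹' B)) = 0)
    (i : Fin 3) : volume (asym T i B) = 0 := by
  obtain ⟨K, hKpos, hK⟩ := exists_bound T
  set t₀ : ℝ := 1 / (16 * K) with ht₀
  have ht₀pos : 0 < t₀ := by positivity
  have hKt : K * t₀ < 1 / 8 := by
    rw [ht₀]
    field_simp
    norm_num
  apply null_of_null_towards T i _ (asym_symm T i B) (asym_fix T i B)
  apply null_of_region T i t₀ ht₀pos _ (measurableSet_asym T i B hB)
  apply prod_null_of_liouville_null
  refine measure_mono_null ?_ (hinv t₀)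
  rintro ⟨x, θ⟩ ⟨⟨h0, h1, h2, h3⟩, hS⟩
  have hdir := bounce_local T i K t₀ hK ht₀pos hKt x θ h0 h1 h2 h3
  have hflow : flow T t₀ (x, θ) = flowFwd T t₀ (x, θ) := by
    unfold flow
    rw [if_pos ht₀pos.le]
  simp only [asym, mem_preimage, mem_ofPred_eq] at hS
  simp only [mem_symmDiff, mem_preimage, hflow, hdir]
  tauto

/-- A measurable set of directions which is almost symmetric under the three reflections of an
irrational triangle is null or conull. -/
lemma trivial_of_asym_null (hT : ¬ IsRational T) (B : Set Dir) (hB : MeasurableSet B)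
    (h : ∀ i, volume (asym T i B) = 0) :
    B =ᵐ[volume] (∅ : Set Dir) ∨ B =ᵐ[volume] (univ : Set Dir) := by
  unfold IsRational at hT
  rw [not_forall] at hT
  obtain ⟨i, hi⟩ := hT
  set a : Dir := 2 • phi T (i + 2) - 2 • phi T (i + 1) with ha
  have horder : addOrderOf a = 0 := by
    by_contra hne
    apply hi
    apply rational_of_addOrderOf_ne_zero
    rcases two_phi_sub T i with h' | h'
    · rwa [← h']
    · rw [← addOrderOf_neg, ← h']
      exact hne
  have herg : Ergodic (fun θ : Dir => a + θ) volume := AddCircle.ergodic_add_left.2 horder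
  apply herg.quasiErgodic.ae_empty_or_univ₀ hB.nullMeasurableSet
  have h1 : ∀ᵐ θ ∂(volume : Measure Dir), (θ ∈ B ↔ reflDir T (i + 1) θ ∈ B) := by
    have := h (i + 1)
    rw [← compl_compl (asym T (i + 1) B)] at this
    filter_upwards [mem_ae_iff.2 this] with θ hθ
    simpa [asym] using hθ
  have h2 : ∀ᵐ θ ∂(volume : Measure Dir), (θ ∈ B ↔ reflDir T (i + 2) θ ∈ B) := by
    have := h (i + 2)
    rw [← compl_compl (asym T (i + 2) B)] at this
    filter_upwards [mem_ae_iff.2 this] with θ hθ
    simpa [asym] using hθ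
  have h3 := (measurePreserving_reflDir T (i + 1)).quasiMeasurePreserving.ae h2
  filter_upwards [h1, h3] with θ hθ1 hθ3
  have e : a + θ = reflDir T (i + 2) (reflDir T (i + 1) θ) := by
    rw [reflDir_eq, reflDir_eq, ha]
    abel
  apply propext
  change a + θ ∈ B ↔ θ ∈ B
  rw [e, ← hθ3, ← hθ1]

theorem trivial_of_irrational (hT : ¬ IsRational T) (B : Set Dir) (hB : MeasurableSet B)
    (hinv : ∀ t : ℝ, liouville T ((flow T t ⁻¹' (Prod.snd ⁻¹' B)) ∆ (Prod.snd ⁻¹' B)) = 0) :
    liouville T (Prod.snd ⁻¹' B) = 0 ∨ liouville T (Prod.snd ⁻¹' B) = 1 := by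
  rw [liouville_snd_preimage]
  rcases trivial_of_asym_null T hT B hB (asym_null T B hB hinv) with h | h
  · left
    rw [measure_congr h]
    simp
  · right
    rw [measure_congr h, AddCircle.measure_univ, mul_comm (volume (table T))]
    apply ENNReal.inv_mul_cancel
    · apply mul_ne_zero
      · simp [Real.pi_pos]
      · exact (volume_table_pos T).ne'
    · exact ENNReal.mul_ne_top ENNReal.ofReal_ne_top (volume_table_lt_top T).ne

end Vale.Agent.P099
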