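import Vale.Agent.P099.Local

namespace Vale.Agent.P099

open MeasureTheory Set
open scoped Real ComplexConjugate

variable (T : Affine.Triangle ℝ ℂ)

lemma exists_point (i : Fin 3) (ε : ℝ) :
    ∃ x : ℂ, lam T i x = ε ∧ lam T (i + 1) x = (1 - ε) / 2 ∧ lam T (i + 2) x = (1 - ε) / 2 := by
  set M : ℂ := (1 / 2 : ℝ) • T.points (i + 1) + (1 / 2 : ℝ) • T.points (i + 2) with hM
  have hh : (1 / 2 : ℝ) + 1 / 2 = 1 := by norm_num
  have hε : ε + (1 - ε) = 1 := by ring
  refine ⟨ε • T.points i + (1 - ε) • M, ?_, ?_, ?_⟩
  · rw [lam_comb T _ _ _ _ _ hε, hM, lam_comb T _ _ _ _ _ hh, lam_points, lam_points, lam_points,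
      if_pos rfl, if_neg (fin3_ne1 i), if_neg (fin3_ne2 i)]
    ring
  · rw [lam_comb T _ _ _ _ _ hε, hM, lam_comb T _ _ _ _ _ hh, lam_points, lam_points, lam_points,
      if_pos rfl, if_neg (fin3_ne1 i).symm, if_neg (fin3_ne12 i)]
    ring
  · rw [lam_comb T _ _ _ _ _ hε, hM, lam_comb T _ _ _ _ _ hh, lam_points, lam_points, lam_points,
      if_pos rfl, if_neg (fin3_ne2 i).symm, if_neg (fin3_ne12 i).symm]
    ring

lemma table_nonempty : (table T).Nonempty := by
  obtain ⟨x, h0, h1, h2⟩ := exists_point T 0 (1 / 3)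
  refine ⟨x, ?_⟩
  rw [mem_table_iff]
  intro j
  rcases fin3_cases 0 j with rfl | rfl | rfl
  · rw [h0]; norm_num
  · rw [h1]; norm_num
  · rw [h2]; norm_num

lemma volume_table_pos : 0 < volume (table T) :=
  (isOpen_table T).measure_pos volume (table_nonempty T)

lemma volume_table_lt_top : volume (table T) < ⊤ := by
  have hc : IsCompact (convexHull ℝ (Set.range T.points)) :=
    (Set.finite_range T.points).isCompact_convexHull ℝ
  exact lt_of_le_of_lt (measure_mono interior_subset) hc.measure_lt_top

/-- The region of phase points close to the middle of side `i` that hit it before time `t₀`. -/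
def region (i : Fin 3) (t₀ : ℝ) : Set Phase :=
  {z | 0 < lam T i z.1 ∧ lam T i z.1 < - t₀ * lin T i (vel z.2) ∧ 1 / 4 < lam T (i + 1) z.1 ∧
    1 / 4 < lam T (i + 2) z.1}

lemma continuous_lin (i : Fin 3) : Continuous (lin T i) :=
  (lin T i).continuous_of_finiteDimensional

lemma isOpen_region (i : Fin 3) (t₀ : ℝ) : IsOpen (region T i t₀) := by
  have c1 : Continuous fun z : Phase => lam T i z.1 := (continuous_lam T i).comp continuous_fst
  have c2 : Continuous fun z : Phase => - t₀ * lin T i (vel z.2) :=
    continuous_const.mul ((continuous_lin T i).comp (continuous_vel.comp continuous_snd))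
  have c3 : Continuous fun z : Phase => lam T (i + 1) z.1 :=
    (continuous_lam T (i + 1)).comp continuous_fst
  have c4 : Continuous fun z : Phase => lam T (i + 2) z.1 :=
    (continuous_lam T (i + 2)).comp continuous_fst
  exact (isOpen_lt continuous_const c1).inter ((isOpen_lt c1 c2).inter
    ((isOpen_lt continuous_const c3).inter (isOpen_lt continuous_const c4)))

lemma region_fst_mem_table (i : Fin 3) (t₀ : ℝ) (z : Phase) (hz : z ∈ region T i t₀) :
    z.1 ∈ table T := by
  rw [mem_table_iff]
  intro j
  obtain ⟨h0, _, h2, h3⟩ := hz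
  rcases fin3_cases i j with rfl | rfl | rfl
  · exact h0
  · linarith
  · linarith

/-- Fubini step: if the part of the region lying over a measurable set `S` of directions is null,
then almost no direction pointing towards side `i` belongs to `S`. -/
lemma null_of_region (i : Fin 3) (t₀ : ℝ) (ht₀ : 0 < t₀) (S : Set Dir) (hS : MeasurableSet S)
    (h : ((volume.restrict (table T)).prod (volume : Measure Dir))
      (region T i t₀ ∩ Prod.snd ⁻¹' S) = 0) :
    volume (S ∩ {θ | lin T i (vel θ) < 0}) = 0 := by
  have hE : MeasurableSet (region T i t₀ ∩ Prod.snd ⁻¹' S) :=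
    (isOpen_region T i t₀).measurableSet.inter (measurable_snd hS)
  rw [Measure.prod_apply_symm hE, lintegral_eq_zero_iff (measurable_measure_prodMk_right hE)] at h
  refine measure_mono_null ?_ h
  rintro θ ⟨hθS, hθ⟩
  simp only [mem_ofPred_eq] at hθ
  simp only [Pi.zero_apply, mem_compl_iff, mem_ofPred_eq]
  have hslice : (fun x : ℂ => (x, θ)) ⁻¹' (region T i t₀ ∩ Prod.snd ⁻¹' S)
      = (fun x : ℂ => (x, θ)) ⁻¹' (region T i t₀) := by
    ext x
    simp [hθS]
  rw [hslice]
  have hopen : IsOpen ((fun x : ℂ => (x, θ)) ⁻¹' (region T i t₀)) :=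
    (isOpen_region T i t₀).preimage (by fun_prop)
  have hsub : (fun x : ℂ => (x, θ)) ⁻¹' (region T i t₀) ⊆ table T :=
    fun x hx => region_fst_mem_table T i t₀ (x, θ) hx
  rw [Measure.restrict_apply hopen.measurableSet, inter_eq_left.2 hsub]
  apply (hopen.measure_pos volume ?_).ne'
  set c := - t₀ * lin T i (vel θ) with hc
  have hcpos : 0 < c := by rw [hc]; nlinarith
  obtain ⟨x, h0, h1, h2⟩ := exists_point T i (min (c / 2) (1 / 4))
  refine ⟨x, ?_⟩
  have hm1 : min (c / 2) (1 / 4) ≤ c / 2 := min_le_left _ _
  have hm2 : min (c / 2) (1 / 4) ≤ 1 / 4 := min_le_right _ _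
  have hm3 : 0 < min (c / 2) (1 / 4) := lt_min (by linarith) (by norm_num)
  refine ⟨?_, ?_, ?_, ?_⟩
  · simp only; rw [h0]; exact hm3
  · simp only; rw [h0, ← hc]; linarith
  · simp only; rw [h1]; linarith
  · simp only; rw [h2]; linarith

lemma measurable_reflDir (i : Fin 3) : Measurable (reflDir T i) := by
  unfold reflDir
  fun_prop

lemma measurePreserving_reflDir (i : Fin 3) :
    MeasurePreserving (reflDir T i) (volume : Measure Dir) volume :=
  Measure.measurePreserving_sub_left volume _

lemma lin_I_sideVec_ne_zero (i : Fin 3) : lin T i (Complex.I * sideVec T i) ≠ 0 := by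
  intro h
  have hw := sideVec_ne_zero T i
  have h0 := lin_sideVec T i
  have hall : ∀ u : ℂ, lin T i u = 0 := by
    intro u
    set z := u / sideVec T i with hz
    have hu : u = z.re • sideVec T i + z.im • (Complex.I * sideVec T i) := by
      have : u = z * sideVec T i := by rw [hz]; field_simp
      rw [this]
      conv_lhs => rw [← Complex.re_add_im z]
      simp only [Complex.real_smul]
      ring
    rw [hu]
    simp only [map_add, map_smul, h, h0, smul_eq_mul, mul_zero, add_zero]
  have := hall (T.points i - T.points (i + 1))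
  rw [lin_sub, lam_points, lam_points, if_pos rfl, if_neg (fin3_ne1 i)] at this
  norm_num at this

lemma reflDir_eq_self_of_lin_eq_zero (i : Fin 3) (θ : Dir) (h : lin T i (vel θ) = 0) :
    reflDir T i θ = θ := by
  apply vel_injective
  rw [vel_reflDir]
  have hw := sideVec_ne_zero T i
  set z := vel θ / sideVec T i with hz
  have hv : vel θ = z.re • sideVec T i + z.im • (Complex.I * sideVec T i) := by
    have : vel θ = z * sideVec T i := by rw [hz]; field_simp
    rw [this]
    conv_lhs => rw [← Complex.re_add_im z]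
    simp only [Complex.real_smul]
    ring
  rw [hv] at h
  simp only [map_add, map_smul, lin_sideVec, smul_eq_mul, mul_zero, zero_add, mul_eq_zero] at h
  have him : z.im = 0 := h.resolve_right (lin_I_sideVec_ne_zero T i)
  have hc : conj z = z := Complex.conj_eq_iff_im.2 him
  rw [hc, hz]
  field_simp

/-- From nullity over the directions pointing towards side `i` to nullity everywhere, for a set of
directions which is symmetric under the reflection and avoids its fixed points. -/
lemma null_of_null_towards (i : Fin 3) (S : Set Dir)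
    (hsymm : ∀ θ, θ ∈ S → reflDir T i θ ∈ S) (hfix : ∀ θ, reflDir T i θ = θ → θ ∉ S)
    (h : volume (S ∩ {θ | lin T i (vel θ) < 0}) = 0) : volume S = 0 := by
  have h' : volume (reflDir T i ⁻¹' (S ∩ {θ | lin T i (vel θ) < 0})) = 0 :=
    (measurePreserving_reflDir T i).quasiMeasurePreserving.preimage_null h
  refine measure_mono_null ?_ (measure_union_null h h')
  intro θ hθ
  rcases lt_trichotomy (lin T i (vel θ)) 0 with hlt | heq | hgt
  · exact Or.inl ⟨hθ, hlt⟩
  · exact absurd hθ (hfix θ (reflDir_eq_self_of_lin_eq_zero T i θ heq))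
  · refine Or.inr ⟨hsymm θ hθ, ?_⟩
    simp only [mem_ofPred_eq]
    rw [lin_vel_reflDir]
    linarith

end Vale.Agent.P099
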