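import Vale.Agent.P099.Defs

namespace Vale.Agent.P099

open MeasureTheory Set
open scoped Real

variable (T : Affine.Triangle ℝ ℂ)

/-- The vertices as an affine basis of the plane. -/
noncomputable def basis : AffineBasis (Fin 3) ℝ ℂ :=
  ⟨T.points, T.independent, by
    rw [T.independent.affineSpan_eq_top_iff_card_eq_finrank_add_one]
    simp [Complex.finrank_real_complex]⟩

/-- Barycentric coordinates. -/
noncomputable def lam (i : Fin 3) : ℂ →ᵃ[ℝ] ℝ := (basis T).coord i

/-- Linear parts of the barycentric coordinates. -/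
noncomputable def lin (i : Fin 3) : ℂ →ₗ[ℝ] ℝ := (lam T i).linear

lemma basis_apply (i : Fin 3) : basis T i = T.points i := rfl

lemma mem_table_iff (x : ℂ) : x ∈ table T ↔ ∀ i, 0 < lam T i x := by
  have h := (basis T).interior_convexHull
  have h2 : Set.range (basis T) = Set.range T.points := rfl
  rw [h2] at h
  unfold table
  rw [h]
  rfl

lemma lam_points (i j : Fin 3) : lam T i (T.points j) = if i = j then 1 else 0 :=
  (basis T).coord_apply i j

lemma lam_add_smul (i : Fin 3) (x v : ℂ) (t : ℝ) :
    lam T i (x + t • v) = lam T i x + t * lin T i v := by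
  have := (lam T i).map_vadd x (t • v)
  simp only [vadd_eq_add, map_smul, smul_eq_mul] at this
  rw [add_comm x, this, add_comm]
  rfl

lemma sum_lam (x : ℂ) : lam T 0 x + lam T 1 x + lam T 2 x = 1 := by
  have := (basis T).sum_coord_apply_eq_one x
  rw [Fin.sum_univ_three] at this
  exact this

lemma sum_lam' (i : Fin 3) (x : ℂ) : lam T i x + lam T (i + 1) x + lam T (i + 2) x = 1 := by
  have := sum_lam T x
  fin_cases i <;> simp <;> linarith

lemma comb_lam (x : ℂ) :
    lam T 0 x • T.points 0 + lam T 1 x • T.points 1 + lam T 2 x • T.points 2 = x := by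
  have := (basis T).linear_combination_coord_eq_self x
  rw [Fin.sum_univ_three] at this
  exact this

lemma comb_lam' (i : Fin 3) (x : ℂ) :
    lam T i x • T.points i + lam T (i + 1) x • T.points (i + 1)
      + lam T (i + 2) x • T.points (i + 2) = x := by
  have := comb_lam T x
  fin_cases i
  · simpa using this
  · simp only [Fin.mk_one, Fin.isValue]
    have e1 : (1 : Fin 3) + 1 = 2 := rfl
    have e2 : (1 : Fin 3) + 2 = 0 := rfl
    rw [e1, e2]
    calc _ = lam T 0 x • T.points 0 + lam T 1 x • T.points 1 + lam T 2 x • T.points 2 := by abel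
      _ = x := this
  · simp only [Fin.reduceFinMk, Fin.isValue]
    have e1 : (2 : Fin 3) + 1 = 0 := rfl
    have e2 : (2 : Fin 3) + 2 = 1 := rfl
    rw [e1, e2]
    calc _ = lam T 0 x • T.points 0 + lam T 1 x • T.points 1 + lam T 2 x • T.points 2 := by abel
      _ = x := this

lemma lam_comb (i : Fin 3) (p q : ℂ) (a b : ℝ) (hab : a + b = 1) :
    lam T i (a • p + b • q) = a * lam T i p + b * lam T i q := by
  have h1 : a • p + b • q = p + b • (q - p) := by
    have : a = 1 - b := by linarith
    subst this
    simp only [sub_smul, one_smul, smul_sub]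
    abel
  rw [h1, lam_add_smul]
  have h2 : lin T i (q - p) = lam T i q - lam T i p := (lam T i).linearMap_vsub q p
  rw [h2]
  have : a = 1 - b := by linarith
  subst this
  ring

lemma lin_sub (i : Fin 3) (p q : ℂ) : lin T i (q - p) = lam T i q - lam T i p :=
  (lam T i).linearMap_vsub q p

lemma fin3_ne1 (i : Fin 3) : i ≠ i + 1 := by fin_cases i <;> decide
lemma fin3_ne2 (i : Fin 3) : i ≠ i + 2 := by fin_cases i <;> decide
lemma fin3_ne12 (i : Fin 3) : i + 1 ≠ i + 2 := by fin_cases i <;> decide
lemma fin3_cases (i j : Fin 3) : j = i ∨ j = i + 1 ∨ j = i + 2 := by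
  fin_cases i <;> fin_cases j <;> decide

lemma mem_side_iff (i : Fin 3) (y : ℂ) :
    y ∈ side T i ↔ lam T i y = 0 ∧ 0 < lam T (i + 1) y ∧ 0 < lam T (i + 2) y := by
  constructor
  · rintro ⟨a, b, ha, hb, hab, rfl⟩
    refine ⟨?_, ?_, ?_⟩
    · rw [lam_comb T _ _ _ _ _ hab, lam_points, lam_points, if_neg (fin3_ne1 i),
        if_neg (fin3_ne2 i)]
      simp
    · rw [lam_comb T _ _ _ _ _ hab, lam_points, lam_points, if_pos rfl, if_neg (fin3_ne12 i)]
      simpa using ha
    · rw [lam_comb T _ _ _ _ _ hab, lam_points, lam_points, if_pos rfl,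
        if_neg (fin3_ne12 i).symm]
      simpa using hb
  · rintro ⟨h0, h1, h2⟩
    refine ⟨lam T (i + 1) y, lam T (i + 2) y, h1, h2, ?_, ?_⟩
    · have := sum_lam' T i y
      linarith
    · have := comb_lam' T i y
      rw [h0] at this
      simpa using this

lemma continuous_lam (i : Fin 3) : Continuous (lam T i) :=
  (lam T i).continuous_of_finiteDimensional

lemma isOpen_table : IsOpen (table T) := isOpen_interior

lemma measurableSet_table : MeasurableSet (table T) := (isOpen_table T).measurableSet

end Vale.Agent.P099
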