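import Vale.Agent.P099.Reflect

namespace Vale.Agent.P099

open MeasureTheory Set
open scoped Real ComplexConjugate

variable (T : Affine.Triangle ℝ ℂ)

lemma run_iff (t : ℝ) (x : ℂ) (θ : Dir) (z' : Phase) :
    Run T t (x, θ) z' ↔
      (0 ≤ t ∧ x + t • vel θ ∈ table T ∧ z' = (x + t • vel θ, θ)) ∨
      (∃ s t' : ℝ, ∃ i : Fin 3, 0 < s ∧ x + s • vel θ ∈ side T i ∧
        Run T t' (x + s • vel θ, reflDir T i θ) z' ∧ t = s + t') := by
  constructor
  · intro h
    cases h with
    | free x θ t ht hx => exact Or.inl ⟨ht, hx, rfl⟩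
    | bounce x θ s t i z hs hx h => exact Or.inr ⟨s, t, i, hs, hx, h, rfl⟩
  · rintro (⟨ht, hx, rfl⟩ | ⟨s, t', i, hs, hx, h, rfl⟩)
    · exact Run.free x θ t ht hx
    · exact Run.bounce x θ s t' i z' hs hx h

lemma Run.nonneg {T : Affine.Triangle ℝ ℂ} {t : ℝ} {z z' : Phase} (h : Run T t z z') : 0 ≤ t := by
  induction h with
  | free x θ t ht hx => exact ht
  | bounce x θ s t i z hs hx h ih => linarith

lemma Run.mem_table {T : Affine.Triangle ℝ ℂ} {t : ℝ} {z z' : Phase} (h : Run T t z z') :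
    z'.1 ∈ table T := by
  induction h with
  | free x θ t ht hx => exact hx
  | bounce x θ s t i z hs hx h ih => exact ih

lemma exists_bound : ∃ K : ℝ, 0 < K ∧ ∀ (j : Fin 3) (θ : Dir), |lin T j (vel θ)| ≤ K := by
  let C : Fin 3 → ℝ := fun j => ‖LinearMap.toContinuousLinearMap (lin T j)‖
  refine ⟨C 0 + C 1 + C 2 + 1, ?_, ?_⟩
  · have h0 : 0 ≤ C 0 := norm_nonneg _
    have h1 : 0 ≤ C 1 := norm_nonneg _
    have h2 : 0 ≤ C 2 := norm_nonneg _
    linarith
  · intro j θ
    have h := (LinearMap.toContinuousLinearMap (lin T j)).le_opNorm (vel θ)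
    rw [norm_vel, mul_one] at h
    have h' : |lin T j (vel θ)| ≤ C j := h
    have h0 : 0 ≤ C 0 := norm_nonneg _
    have h1 : 0 ≤ C 1 := norm_nonneg _
    have h2 : 0 ≤ C 2 := norm_nonneg _
    fin_cases j <;> simp only [Fin.zero_eta, Fin.mk_one, Fin.reduceFinMk] at h' ⊢ <;> linarith

lemma flowFwd_spec {t : ℝ} {z : Phase} (h : ∃ z', Run T t z z') : Run T t z (flowFwd T t z) := by
  unfold flowFwd
  rw [dif_pos h]
  exact h.choose_spec

lemma not_mem_side_of_pos (y : ℂ) (h : ∀ j, 0 < lam T j y) (i : Fin 3) : y ∉ side T i := by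
  intro hy
  rw [mem_side_iff] at hy
  have := h i
  linarith [hy.1]

/-- A point close to the middle of side `i`, moving towards it, bounces exactly once. -/
lemma bounce_local (i : Fin 3) (K t₀ : ℝ) (hK : ∀ (j : Fin 3) (θ : Dir), |lin T j (vel θ)| ≤ K)
    (ht₀ : 0 < t₀) (hKt : K * t₀ < 1 / 8) (x : ℂ) (θ : Dir) (h0 : 0 < lam T i x)
    (h1 : lam T i x < - t₀ * lin T i (vel θ)) (h2 : 1 / 4 < lam T (i + 1) x)
    (h3 : 1 / 4 < lam T (i + 2) x) :
    (flowFwd T t₀ (x, θ)).2 = reflDir T i θ := by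
  set a := lin T i (vel θ) with ha
  have ha_neg : a < 0 := by
    by_contra hcon
    rw [not_lt] at hcon
    have : - t₀ * a ≤ 0 := by nlinarith
    linarith
  have hKpos : 0 ≤ K := le_trans (abs_nonneg _) (hK i θ)
  -- bound on drift
  have drift : ∀ (j : Fin 3) (θ' : Dir) (s : ℝ), 0 ≤ s → s ≤ t₀ → |s * lin T j (vel θ')| < 1 / 8 := by
    intro j θ' s hs hst
    rw [abs_mul, abs_of_nonneg hs]
    calc s * |lin T j (vel θ')| ≤ t₀ * K :=
          mul_le_mul hst (hK j θ') (abs_nonneg _) ht₀.le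
      _ = K * t₀ := mul_comm _ _
      _ < 1 / 8 := hKt
  set s₀ := lam T i x / (-a) with hs₀
  have hs₀pos : 0 < s₀ := div_pos h0 (by linarith)
  have hs₀lt : s₀ < t₀ := by
    rw [hs₀, div_lt_iff₀ (by linarith)]
    linarith
  have hs₀a : s₀ * a = - lam T i x := by
    have hane : a ≠ 0 := ha_neg.ne
    rw [hs₀]
    field_simp
  set y := x + s₀ • vel θ with hy
  have hyi : lam T i y = 0 := by
    rw [hy, lam_add_smul, ← ha, hs₀a]; ring
  have hy1 : 1 / 8 < lam T (i + 1) y := by
    rw [hy, lam_add_smul]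
    have := drift (i + 1) θ s₀ hs₀pos.le hs₀lt.le
    rw [abs_lt] at this
    linarith [this.1]
  have hy2 : 1 / 8 < lam T (i + 2) y := by
    rw [hy, lam_add_smul]
    have := drift (i + 2) θ s₀ hs₀pos.le hs₀lt.le
    rw [abs_lt] at this
    linarith [this.1]
  have hyside : y ∈ side T i := by
    rw [mem_side_iff]
    exact ⟨hyi, by linarith, by linarith⟩
  -- after the bounce everything stays inside
  have inside : ∀ s : ℝ, 0 < s → s ≤ t₀ → ∀ j, 0 < lam T j (y + s • vel (reflDir T i θ)) := by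
    intro s hs hst j
    rw [lam_add_smul]
    rcases fin3_cases i j with rfl | rfl | rfl
    · rw [lin_vel_reflDir, ← ha, hyi]
      nlinarith
    · have := drift (i + 1) (reflDir T i θ) s hs.le hst
      rw [abs_lt] at this
      linarith [this.1]
    · have := drift (i + 2) (reflDir T i θ) s hs.le hst
      rw [abs_lt] at this
      linarith [this.1]
  have hex : ∃ z', Run T t₀ (x, θ) z' := by
    refine ⟨(y + (t₀ - s₀) • vel (reflDir T i θ), reflDir T i θ), ?_⟩
    have hrun : Run T (t₀ - s₀) (y, reflDir T i θ)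
        (y + (t₀ - s₀) • vel (reflDir T i θ), reflDir T i θ) := by
      apply Run.free _ _ _ (by linarith)
      rw [mem_table_iff]
      exact inside _ (by linarith) (by linarith)
    have := Run.bounce x θ s₀ (t₀ - s₀) i _ hs₀pos hyside hrun
    have e : s₀ + (t₀ - s₀) = t₀ := by ring
    rwa [e] at this
  have hspec := flowFwd_spec T hex
  set z' := flowFwd T t₀ (x, θ) with hz'
  rw [run_iff] at hspec
  rcases hspec with ⟨_, hx, _⟩ | ⟨s, t', i', hs, hx, hrun, ht⟩
  · exfalso
    rw [mem_table_iff] at hx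
    have := hx i
    rw [lam_add_smul, ← ha] at this
    linarith
  · have ht' := hrun.nonneg
    have hst : s ≤ t₀ := by linarith
    rw [mem_side_iff] at hx
    have hi' : i' = i := by
      rcases fin3_cases i i' with h | h | h
      · exact h
      · exfalso
        have h4 := hx.1
        rw [h, lam_add_smul] at h4
        have := drift (i + 1) θ s hs.le hst
        rw [abs_lt] at this
        linarith [this.1]
      · exfalso
        have h4 := hx.1
        rw [h, lam_add_smul] at h4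
        have := drift (i + 2) θ s hs.le hst
        rw [abs_lt] at this
        linarith [this.1]
    subst hi'
    have hss : s = s₀ := by
      have h4 := hx.1
      rw [lam_add_smul, ← ha] at h4
      have : s * a = s₀ * a := by rw [hs₀a]; linarith
      exact mul_right_cancel₀ ha_neg.ne this
    subst hss
    rw [run_iff] at hrun
    rcases hrun with ⟨_, _, hz⟩ | ⟨s', t'', i'', hs', hx', hrun', ht''⟩
    · rw [hz]
    · exfalso
      have := hrun'.nonneg
      exact not_mem_side_of_pos T _ (inside s' hs' (by linarith)) i'' hx'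

/-- A point in the central part of the table flies freely for a short time. -/
lemma free_local (K t₀ : ℝ) (hK : ∀ (j : Fin 3) (θ : Dir), |lin T j (vel θ)| ≤ K)
    (ht₀ : 0 < t₀) (hKt : K * t₀ < 1 / 8) (x : ℂ) (θ : Dir) (h : ∀ j, 1 / 4 < lam T j x) :
    (flowFwd T t₀ (x, θ)).2 = θ := by
  have drift : ∀ (j : Fin 3) (θ' : Dir) (s : ℝ), 0 ≤ s → s ≤ t₀ → |s * lin T j (vel θ')| < 1 / 8 := by
    intro j θ' s hs hst
    rw [abs_mul, abs_of_nonneg hs]
    calc s * |lin T j (vel θ')| ≤ t₀ * K :=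
          mul_le_mul hst (hK j θ') (abs_nonneg _) ht₀.le
      _ = K * t₀ := mul_comm _ _
      _ < 1 / 8 := hKt
  have inside : ∀ s : ℝ, 0 ≤ s → s ≤ t₀ → ∀ j, 0 < lam T j (x + s • vel θ) := by
    intro s hs hst j
    rw [lam_add_smul]
    have := drift j θ s hs hst
    rw [abs_lt] at this
    linarith [this.1, h j]
  have hex : ∃ z', Run T t₀ (x, θ) z' :=
    ⟨_, Run.free x θ t₀ ht₀.le ((mem_table_iff T _).2 (inside t₀ ht₀.le le_rfl))⟩
  have hspec := flowFwd_spec T hex
  rw [run_iff] at hspec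
  rcases hspec with ⟨_, _, hz⟩ | ⟨s, t', i', hs, hx, hrun, ht⟩
  · rw [hz]
  · exfalso
    have := hrun.nonneg
    exact not_mem_side_of_pos T _ (inside s hs.le (by linarith)) i' hx

end Vale.Agent.P099
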