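import Mathlib

namespace Vale.Agent.P099

open MeasureTheory Set

/-- A measurable subset of a product whose horizontal and vertical slices are almost all null or
conull is itself null or conull. -/
lemma prod_trivial {α β : Type*} [MeasurableSpace α] [MeasurableSpace β]
    (μ : Measure α) (ν : Measure β) [SFinite μ] [SFinite ν] (C : Set (α × β))
    (hC : MeasurableSet C)
    (h1 : ∀ᵐ y ∂ν, μ ((fun x => (x, y)) ⁻¹' C) = 0 ∨ μ ((fun x => (x, y)) ⁻¹' Cᶜ) = 0)
    (h2 : ∀ᵐ x ∂μ, ν (Prod.mk x ⁻¹' C) = 0 ∨ ν (Prod.mk x ⁻¹' Cᶜ) = 0) :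
    (μ.prod ν) C = 0 ∨ (μ.prod ν) Cᶜ = 0 := by
  set Z : Set β := {y | μ ((fun x => (x, y)) ⁻¹' Cᶜ) = 0} with hZ
  set Z' : Set α := {x | ν (Prod.mk x ⁻¹' Cᶜ) = 0} with hZ'
  have hZm : MeasurableSet Z :=
    (measurable_measure_prodMk_right hC.compl) (measurableSet_singleton 0)
  have hZ'm : MeasurableSet Z' :=
    (measurable_measure_prodMk_left hC.compl) (measurableSet_singleton 0)
  have hA : (μ.prod ν) (C ∩ (univ ×ˢ Zᶜ)) = 0 := by
    have hm : MeasurableSet (C ∩ (univ ×ˢ Zᶜ)) := hC.inter (MeasurableSet.univ.prod hZm.compl)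
    rw [Measure.prod_apply_symm hm, lintegral_eq_zero_iff (measurable_measure_prodMk_right hm)]
    filter_upwards [h1] with y hy
    by_cases hyZ : y ∈ Z
    · have : (fun x => (x, y)) ⁻¹' (C ∩ (univ ×ˢ Zᶜ)) = (∅ : Set α) := by
        ext x; simp [hyZ]
      simp [this]
    · have h0 : μ ((fun x => (x, y)) ⁻¹' C) = 0 := hy.resolve_right hyZ
      exact measure_mono_null (preimage_mono inter_subset_left) h0
  have hB : (μ.prod ν) (Cᶜ ∩ (univ ×ˢ Z)) = 0 := by
    have hm : MeasurableSet (Cᶜ ∩ (univ ×ˢ Z)) := hC.compl.inter (MeasurableSet.univ.prod hZm)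
    rw [Measure.prod_apply_symm hm, lintegral_eq_zero_iff (measurable_measure_prodMk_right hm)]
    filter_upwards with y
    by_cases hyZ : y ∈ Z
    · exact measure_mono_null (preimage_mono inter_subset_left) hyZ
    · have : (fun x => (x, y)) ⁻¹' (Cᶜ ∩ (univ ×ˢ Z)) = (∅ : Set α) := by
        ext x; simp [hyZ]
      simp [this]
  have hA' : (μ.prod ν) (C ∩ (Z'ᶜ ×ˢ univ)) = 0 := by
    have hm : MeasurableSet (C ∩ (Z'ᶜ ×ˢ univ)) := hC.inter (hZ'm.compl.prod MeasurableSet.univ)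
    rw [Measure.prod_apply hm, lintegral_eq_zero_iff (measurable_measure_prodMk_left hm)]
    filter_upwards [h2] with x hx
    by_cases hxZ : x ∈ Z'
    · have : Prod.mk x ⁻¹' (C ∩ (Z'ᶜ ×ˢ univ)) = (∅ : Set β) := by
        ext y; simp [hxZ]
      simp [this]
    · have h0 : ν (Prod.mk x ⁻¹' C) = 0 := hx.resolve_right hxZ
      exact measure_mono_null (preimage_mono inter_subset_left) h0
  have hB' : (μ.prod ν) (Cᶜ ∩ (Z' ×ˢ univ)) = 0 := by
    have hm : MeasurableSet (Cᶜ ∩ (Z' ×ˢ univ)) := hC.compl.inter (hZ'm.prod MeasurableSet.univ)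
    rw [Measure.prod_apply hm, lintegral_eq_zero_iff (measurable_measure_prodMk_left hm)]
    filter_upwards with x
    by_cases hxZ : x ∈ Z'
    · exact measure_mono_null (preimage_mono inter_subset_left) hxZ
    · have : Prod.mk x ⁻¹' (Cᶜ ∩ (Z' ×ˢ univ)) = (∅ : Set β) := by
        ext y; simp [hxZ]
      simp [this]
  have hprod : (μ.prod ν) (Z' ×ˢ Zᶜ) = 0 := by
    refine measure_mono_null ?_ (measure_union_null hB' hA)
    rintro ⟨x, y⟩ ⟨hx, hy⟩
    by_cases hxy : (x, y) ∈ C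
    · exact Or.inr ⟨hxy, mem_univ _, hy⟩
    · exact Or.inl ⟨hxy, hx, mem_univ _⟩
  rw [Measure.prod_prod, mul_eq_zero] at hprod
  rcases hprod with h | h
  · left
    have h' : (μ.prod ν) (Z' ×ˢ univ) = 0 := by rw [Measure.prod_prod, h, zero_mul]
    refine measure_mono_null ?_ (measure_union_null hA' h')
    rintro ⟨x, y⟩ hxy
    by_cases hx : x ∈ Z'
    · exact Or.inr ⟨hx, mem_univ _⟩
    · exact Or.inl ⟨hxy, hx, mem_univ _⟩
  · right
    have h' : (μ.prod ν) (univ ×ˢ Zᶜ) = 0 := by rw [Measure.prod_prod, h, mul_zero]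
    refine measure_mono_null ?_ (measure_union_null hB h')
    rintro ⟨x, y⟩ hxy
    by_cases hy : y ∈ Z
    · exact Or.inl ⟨hxy, mem_univ _, hy⟩
    · exact Or.inr ⟨mem_univ _, hy⟩

end Vale.Agent.P099
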