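import Vale.Agent.P099.Geometry

namespace Vale.Agent.P099

open MeasureTheory Set
open scoped Real ComplexConjugate

lemma vel_coe (x : ℝ) : vel (x : Dir) = Complex.exp (x * Complex.I) := by
  unfold vel
  rw [AddCircle.toCircle_apply_mk, Circle.coe_exp]
  have : 2 * π / (2 * π) * x = x := by
    field_simp
  rw [this]

lemma vel_add (a b : Dir) : vel (a + b) = vel a * vel b := by
  unfold vel
  rw [AddCircle.toCircle_add, Circle.coe_mul]

lemma vel_neg (a : Dir) : vel (-a) = conj (vel a) := by
  unfold vel
  rw [AddCircle.toCircle_neg, Circle.coe_inv_eq_conj]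

lemma norm_vel (a : Dir) : ‖vel a‖ = 1 := by
  unfold vel
  exact Circle.norm_coe _

lemma vel_ne_zero (a : Dir) : vel a ≠ 0 := by
  intro h
  have := norm_vel a
  rw [h] at this
  simp at this

lemma vel_injective : Function.Injective vel := by
  intro a b h
  unfold vel at h
  exact AddCircle.injective_toCircle (Real.two_pi_pos.ne') (Circle.ext h)

lemma continuous_vel : Continuous vel := by
  unfold vel
  exact continuous_subtype_val.comp AddCircle.continuous_toCircle

lemma vel_pi : vel ((π : ℝ) : Dir) = -1 := by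
  rw [vel_coe]
  exact Complex.exp_pi_mul_I

lemma vel_arg (w : ℂ) (hw : w ≠ 0) : vel ((w.arg : ℝ) : Dir) = w / ‖w‖ := by
  rw [vel_coe]
  have h := Complex.norm_mul_exp_arg_mul_I w
  have hn : ((‖w‖ : ℝ) : ℂ) ≠ 0 := by
    simpa using hw
  field_simp
  rw [mul_comm]
  exact h

variable (T : Affine.Triangle ℝ ℂ)

/-- The vector along the side opposite to the vertex `i`. -/
def sideVec (i : Fin 3) : ℂ := T.points (i + 2) - T.points (i + 1)

lemma sideVec_ne_zero (i : Fin 3) : sideVec T i ≠ 0 := by
  unfold sideVec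
  rw [sub_ne_zero]
  intro h
  exact (fin3_ne12 i).symm (T.independent.injective h)

lemma lin_sideVec (i : Fin 3) : lin T i (sideVec T i) = 0 := by
  unfold sideVec
  rw [lin_sub, lam_points, lam_points, if_neg (fin3_ne1 i), if_neg (fin3_ne2 i)]
  simp

lemma vel_reflDir (i : Fin 3) (θ : Dir) :
    vel (reflDir T i θ) = sideVec T i * conj (vel θ / sideVec T i) := by
  have hw := sideVec_ne_zero T i
  unfold reflDir
  rw [sub_eq_add_neg, vel_add, vel_neg, two_smul, vel_add]
  change vel (((sideVec T i).arg : ℝ) : Dir) * vel (((sideVec T i).arg : ℝ) : Dir) * _ = _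
  rw [vel_arg _ hw]
  set w := sideVec T i
  have hn : ((‖w‖ : ℝ) : ℂ) ≠ 0 := by simpa using hw
  have hc : conj w ≠ 0 := by simpa using hw
  rw [map_div₀]
  have h2 : ((‖w‖ : ℝ) : ℂ) * ((‖w‖ : ℝ) : ℂ) = w * conj w := by
    rw [Complex.mul_conj, Complex.normSq_eq_norm_sq]
    push_cast
    ring
  field_simp
  rw [pow_two, h2]
  ring

lemma linear_reflect (L : ℂ →ₗ[ℝ] ℝ) (w v : ℂ) (hw : w ≠ 0) (hL : L w = 0) :
    L (w * conj (v / w)) = - L v := by
  set z := v / w with hz
  have hv : v = z.re • w + z.im • (Complex.I * w) := by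
    have : v = z * w := by rw [hz]; field_simp
    rw [this]
    conv_lhs => rw [← Complex.re_add_im z]
    simp only [Complex.real_smul]
    ring
  have hv' : w * conj z = z.re • w + (-z.im) • (Complex.I * w) := by
    have : conj z = (z.re : ℂ) - z.im * Complex.I := by
      apply Complex.ext <;> simp
    rw [this]
    simp only [Complex.real_smul]
    push_cast
    ring
  rw [hv', hv]
  simp only [map_add, map_smul, hL, smul_eq_mul]
  ring

lemma lin_vel_reflDir (i : Fin 3) (θ : Dir) :
    lin T i (vel (reflDir T i θ)) = - lin T i (vel θ) := by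
  rw [vel_reflDir]
  exact linear_reflect _ _ _ (sideVec_ne_zero T i) (lin_sideVec T i)

lemma reflDir_reflDir (i : Fin 3) (θ : Dir) : reflDir T i (reflDir T i θ) = θ := by
  unfold reflDir
  abel

end Vale.Agent.P099
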